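import Vale.Agent.P209.Asy.Defs

/-!
P209, BK: bin packing with bins of capacity `K * D ^ J`.
-/

namespace P209.Asy.BK

theorem thm : StmtBK := by
  intro ι _ _ D J N K hD j hj s hs
  classical
  obtain ⟨p, hp1, hp2⟩ := binpack D J (N * K) hD j hj s hs
  set e : Fin N × Fin K ≃ Fin (N * K) := finProdFinEquiv with he
  refine ⟨fun i => (p i).map fun c => (e.symm c).1, fun i hi => ?_, fun a => ?_⟩
  · intro h
    exact hp1 i hi (Option.map_eq_none_iff.1 h)
  · have h1 : ∀ i, (if (p i).map (fun c => (e.symm c).1) = some a then D ^ (J - j i) else 0) ≤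
        ∑ b : Fin K, (if p i = some (e (a, b)) then D ^ (J - j i) else 0) := by
      intro i
      split_ifs with h
      · obtain ⟨c, hc, hca⟩ := Option.map_eq_some_iff.1 h
        have hc2 : p i = some (e (a, (e.symm c).2)) := by
          rw [hc, ← hca]
          simp
        have h2 := Finset.single_le_sum
          (f := fun b : Fin K => if p i = some (e (a, b)) then D ^ (J - j i) else 0)
          (fun b _ => Nat.zero_le _) (Finset.mem_univ (e.symm c).2)
        rw [if_pos hc2] at h2
        exact h2
      · exact Nat.zero_le _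
    calc ∑ i ∈ s with (p i).map (fun c => (e.symm c).1) = some a, D ^ (J - j i)
        = ∑ i ∈ s, (if (p i).map (fun c => (e.symm c).1) = some a then D ^ (J - j i) else 0) :=
          Finset.sum_filter _ _
      _ ≤ ∑ i ∈ s, ∑ b : Fin K, (if p i = some (e (a, b)) then D ^ (J - j i) else 0) :=
          Finset.sum_le_sum fun i _ => h1 i
      _ = ∑ b : Fin K, ∑ i ∈ s, (if p i = some (e (a, b)) then D ^ (J - j i) else 0) :=
          Finset.sum_comm
      _ = ∑ b : Fin K, ∑ i ∈ s with p i = some (e (a, b)), D ^ (J - j i) :=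
          Finset.sum_congr rfl fun b _ => (Finset.sum_filter _ _).symm
      _ ≤ ∑ _b : Fin K, D ^ J := Finset.sum_le_sum fun b _ => hp2 _
      _ = K * D ^ J := by rw [Finset.sum_const, Finset.card_univ, Fintype.card_fin, smul_eq_mul]

end P209.Asy.BK
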