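import Vale.Agent.P209.Asy.Defs

/-! P209, module CELL. -/

namespace P209.Asy.CELL

theorem thm : StmtCELL := by
  intro n hn μ J hμ ι _ j hj hsum b hb
  classical
  have hD : 1 ≤ 2 ^ n := Nat.one_le_two_pow
  obtain ⟨p, hp1, hp2⟩ := binpack (2 ^ n) J (μ ^ n) hD j hj Finset.univ hsum
  have hp3 : ∀ i, ∃ a, p i = some a := fun i =>
    Option.ne_none_iff_exists'.1 (hp1 i (Finset.mem_univ i))
  choose q hq using hp3
  have hμ0 : (0 : ℝ) < μ := by exact_mod_cast hμ
  have hb2 : 0 < b / μ := div_pos hb hμ0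
  have hgrid := fits_grid hn hb2 μ
  have hcard : Fintype.card (Fin (μ ^ n)) = Fintype.card (Fin n → Fin μ) := by simp
  have hgrid2 := hgrid.reindex (Fintype.equivOfCardEq hcard)
    (Fintype.equivOfCardEq hcard).injective
  have e : b / μ * (μ : ℕ) = b := div_mul_cancel₀ _ hμ0.ne'
  rw [e] at hgrid2
  refine hgrid2.refine q ?_
  intro a
  exact fits_levels hn J (fun k : {k : ι // q k = a} => j k.1) (fun k => hj k.1) (by
    refine le_trans (le_of_eq ?_) (hp2 a)
    exact (Finset.sum_subtype (Finset.univ.filter fun i => p i = some a)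
      (p := fun k => q k = a) (fun x => by simp [hq])
      (fun i => (2 ^ n) ^ (J - j i))).symm) hb2

end P209.Asy.CELL
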