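import Vale.Agent.P209.Asy.Defs

/-!
P209, module CHOICE.
-/

open Filter Topology

namespace P209.Asy.CHOICE

theorem bern (B : ℝ) (hB : 1 ≤ B) (m : ℕ) :
    B ^ (m + 1) ≤ (B - 1) ^ (m + 1) + ((m : ℝ) + 1) * B ^ m := by
  induction m with
  | zero => simp
  | succ m ih =>
    have h1 : 0 ≤ B - 1 := by linarith
    have h2 : (B - 1) * B ^ (m + 1) ≤ (B - 1) * ((B - 1) ^ (m + 1) + ((m : ℝ) + 1) * B ^ m) :=
      mul_le_mul_of_nonneg_left ih h1
    have h3 : 0 ≤ ((m : ℝ) + 1) * B ^ m := by positivity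
    have e1 : B ^ (m + 1 + 1) = (B - 1) * B ^ (m + 1) + B ^ (m + 1) := by ring
    have e2 : (B - 1) * ((B - 1) ^ (m + 1) + ((m : ℝ) + 1) * B ^ m) =
        (B - 1) ^ (m + 1 + 1) + ((m : ℝ) + 1) * B ^ (m + 1) - ((m : ℝ) + 1) * B ^ m := by ring
    push_cast
    rw [e1]
    rw [e2] at h2
    nlinarith

theorem thm : StmtCHOICE := by
  intro n hn ε h0 h1
  have ht : Tendsto (fun L : ℕ => (1 + 1 / ((L : ℝ) + 1)) ^ n) atTop (𝓝 ((1 + 0) ^ n)) :=
    (tendsto_one_div_add_atTop_nhds_zero_nat.const_add 1).pow n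
  rw [add_zero, one_pow] at ht
  obtain ⟨L', hL'⟩ := (ht.eventually_lt_const (show (1 : ℝ) < 1 + ε / 4 by linarith)).exists
  obtain ⟨M, hM⟩ := exists_nat_ge (3 * (((L' : ℝ) + 1) + n) / ε ^ 2 + 1 / ε)
  have hM1 : 1 / ε ≤ (M : ℝ) := le_trans (by
    have : 0 ≤ 3 * (((L' : ℝ) + 1) + n) / ε ^ 2 := by positivity
    linarith) hM
  have hM2 : 3 * (((L' : ℝ) + 1) + n) ≤ ε ^ 2 * M := by
    have h2 : 3 * (((L' : ℝ) + 1) + n) / ε ^ 2 ≤ (M : ℝ) := le_trans (by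
      have : 0 ≤ 1 / ε := by positivity
      linarith) hM
    rw [div_le_iff₀ (by positivity)] at h2
    linarith
  have hM3 : 1 ≤ ε * M := by
    rw [div_le_iff₀ h0] at hM1
    linarith
  have hM4 : (1 : ℝ) ≤ M := by
    have : (1 : ℝ) ≤ 1 / ε := by
      rw [le_div_iff₀ h0]
      linarith
    linarith
  refine ⟨L' + 1, M, by omega, by exact_mod_cast hM4, ?_⟩
  intro x hx hx1
  have hM0 : (0 : ℝ) ≤ M := by linarith
  have hfl : ((⌊x * M⌋₊ : ℕ) : ℝ) ≤ x * M := Nat.floor_le (by positivity)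
  have hxM : x * M + 1 ≤ M := by nlinarith
  refine ⟨⌊x * M⌋₊ + 1, ?_, ?_, ?_⟩
  · have : ((⌊x * M⌋₊ + 1 : ℕ) : ℝ) ≤ (M : ℝ) := by
      push_cast
      linarith
    exact_mod_cast this
  · push_cast
    exact Nat.lt_floor_add_one _
  · intro S hS hS1
    obtain ⟨m, rfl⟩ : ∃ m, n = m + 1 := ⟨n - 1, by omega⟩
    have hT : (1 : ℝ) ≤ (M : ℝ) ^ m := one_le_pow₀ hM4
    have hP : ((⌊x * M⌋₊ + 1 : ℕ) : ℝ) ^ (m + 1) ≤
        x ^ (m + 1) * ((M : ℝ) ^ m * M) + ((m : ℝ) + 1) * (M : ℝ) ^ m := by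
      have h3 : ((⌊x * M⌋₊ + 1 : ℕ) : ℝ) ^ (m + 1) ≤ (x * M + 1) ^ (m + 1) := by
        apply pow_le_pow_left₀ (by positivity)
        push_cast
        linarith
      have h4 := bern (x * M + 1) (by
        have : 0 ≤ x * M := by positivity
        linarith) m
      have h5 : (x * M + 1) ^ m ≤ (M : ℝ) ^ m := pow_le_pow_left₀ (by positivity) hxM m
      have h6 : ((m : ℝ) + 1) * (x * M + 1) ^ m ≤ ((m : ℝ) + 1) * (M : ℝ) ^ m :=
        mul_le_mul_of_nonneg_left h5 (by positivity)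
      have h7 : (x * M + 1 - 1) ^ (m + 1) = x ^ (m + 1) * ((M : ℝ) ^ m * M) := by
        rw [add_sub_cancel_right, mul_pow, pow_succ (M : ℝ) m]
      rw [h7] at h4
      linarith
    have hX : x ^ (m + 1) ≤ 1 - ε := by
      calc x ^ (m + 1) ≤ x ^ 1 := pow_le_pow_of_le_one hx.le (by linarith) (by omega)
        _ ≤ 1 - ε := by rw [pow_one]; exact hx1
    have hX0 : 0 ≤ x ^ (m + 1) := by positivity
    generalize x ^ (m + 1) = X at *
    generalize hTdef : (M : ℝ) ^ m = T at *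
    have hc : (1 + 1 / (((L' + 1 : ℕ) : ℝ))) ^ (m + 1) ≤ 1 + ε / 4 := by
      push_cast
      exact hL'.le
    have hc0 : 0 ≤ (1 + 1 / (((L' + 1 : ℕ) : ℝ))) ^ (m + 1) := by positivity
    generalize (1 + 1 / (((L' + 1 : ℕ) : ℝ))) ^ (m + 1) = c at *
    have hcS : c * S ≤ (1 - 3 * ε / 4) * (1 - X) := by
      calc c * S ≤ (1 + ε / 4) * ((1 - ε) * (1 - X)) :=
            mul_le_mul hc hS1 hS (by linarith)
        _ = (1 - 3 * ε / 4) * (1 - X) - ε ^ 2 / 4 * (1 - X) := by ring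
        _ ≤ (1 - 3 * ε / 4) * (1 - X) := by
            have : 0 ≤ ε ^ 2 / 4 * (1 - X) := mul_nonneg (by positivity) (by linarith)
            linarith
    have hcS2 : c * S ≤ (1 - X) - 3 * ε ^ 2 / 4 := by
      have : 0 ≤ ε * ((1 - X) - ε) := mul_nonneg h0.le (by linarith)
      nlinarith
    have hTM : 0 ≤ T * M := by nlinarith
    have h8 : c * (T * M * S) ≤ T * M * ((1 - X) - 3 * ε ^ 2 / 4) := by
      have := mul_le_mul_of_nonneg_left hcS2 hTM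
      calc c * (T * M * S) = T * M * (c * S) := by ring
        _ ≤ _ := this
    have h9 : 0 ≤ T * (3 / 4 * (ε ^ 2 * M) - 3 / 4 * (3 * (((L' : ℝ) + 1) + ((m + 1 : ℕ) : ℝ)))) :=
      mul_nonneg (by linarith) (by linarith)
    have h10 : 0 ≤ (T - 1) * ((L' : ℝ) + 1) := mul_nonneg (by linarith) (by positivity)
    have h11 : 0 ≤ T * (((L' : ℝ) + 1) + ((m : ℝ) + 1)) := mul_nonneg (by linarith) (by positivity)
    rw [pow_succ (M : ℝ) m, hTdef]
    push_cast at h9 ⊢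
    push_cast at hP
    nlinarith

end P209.Asy.CHOICE
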