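import Mathlib

/-! P209, asymptotically sharp volume condition: choice of the parameters. -/

namespace P209.Asy

def StmtCHOICE2 : Prop := ∀ (n : ℕ), 0 < n → ∀ ε : ℝ, 0 < ε → ε < 1 → ∃ L K : ℕ, 1 ≤ L ∧ 1 ≤ K ∧
  ∀ x : ℝ, 0 < x → x < 1 → ∃ M p : ℕ, 1 ≤ M ∧ p ≤ M ∧ x * M < p ∧ (M : ℝ) * (1 - x) ≤ K ∧
    ∀ S : ℝ, 0 ≤ S → S ≤ (1 - ε) * (1 - x ^ n) →
      (1 + 1 / (L : ℝ)) ^ n * ((M : ℝ) ^ n * S) + L ≤ (M : ℝ) ^ n - (p : ℝ) ^ n

theorem pow_succ_le (n : ℕ) {a M : ℝ} (ha : 0 ≤ a) (haM : a + 1 ≤ M) :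
    (a + 1) ^ (n + 1) ≤ a ^ (n + 1) + (n + 1) * M ^ n := by
  induction n with
  | zero => simp
  | succ n ih =>
    have hM : 0 ≤ M := by linarith
    have h1 : (a + 1) ^ (n + 1) ≤ M ^ (n + 1) := pow_le_pow_left₀ (by linarith) haM _
    calc (a + 1) ^ (n + 1 + 1) = a * (a + 1) ^ (n + 1) + (a + 1) ^ (n + 1) := by ring
      _ ≤ a * (a ^ (n + 1) + (n + 1) * M ^ n) + M ^ (n + 1) := by gcongr
      _ = a ^ (n + 1 + 1) + (n + 1) * (a * M ^ n) + M ^ (n + 1) := by ring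
      _ ≤ a ^ (n + 1 + 1) + (n + 1) * (M * M ^ n) + M ^ (n + 1) := by
        gcongr
        linarith
      _ = _ := by push_cast; ring

theorem choice2 : StmtCHOICE2 := by
  intro n hn ε hε hε1
  -- L
  have hlim : Filter.Tendsto (fun L : ℕ => (1 + 1 / (L : ℝ)) ^ n) Filter.atTop (nhds 1) := by
    have h1 : Filter.Tendsto (fun L : ℕ => 1 / (L : ℝ)) Filter.atTop (nhds 0) :=
      tendsto_one_div_atTop_nhds_zero_nat
    have h2 := (tendsto_const_nhds (x := (1 : ℝ))).add h1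
    have h3 := h2.pow n
    simpa using h3
  obtain ⟨L, hL2, hL1⟩ := ((hlim.eventually (gt_mem_nhds (show (1 : ℝ) < 1 + ε / 4 by linarith))).and
    (Filter.eventually_ge_atTop 1)).exists
  have hLr : (1 : ℝ) ≤ L := by exact_mod_cast hL1
  obtain ⟨K0, hK0⟩ := exists_nat_ge (2 * ((n : ℝ) + L) / ε)
  have hnr : (1 : ℝ) ≤ n := by exact_mod_cast hn
  have hK0' : 2 * ((n : ℝ) + L) ≤ ε * K0 := by
    rw [div_le_iff₀ hε] at hK0; linarith
  have hK1 : (1 : ℝ) ≤ K0 := by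
    have : ε * K0 ≤ 1 * K0 := by gcongr
    linarith
  refine ⟨L, K0 + 1, hL1, by omega, ?_⟩
  intro x hx hx1
  have ht : 0 < 1 - x := by linarith
  set M := ⌈(K0 : ℝ) / (1 - x)⌉₊ with hM
  have hMge : (K0 : ℝ) / (1 - x) ≤ M := Nat.le_ceil _
  have hMlt : (M : ℝ) < K0 / (1 - x) + 1 := Nat.ceil_lt_add_one (by positivity)
  have hKM : (K0 : ℝ) ≤ M * (1 - x) := by rwa [div_le_iff₀ ht] at hMge
  have hM1 : (1 : ℝ) ≤ M := by
    have : (M : ℝ) * (1 - x) ≤ M * 1 := by gcongr; linarith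
    linarith
  have hM0 : (0 : ℝ) < M := by linarith
  have hxM : x * M + 1 ≤ M := by nlinarith
  refine ⟨M, ⌊x * M⌋₊ + 1, by exact_mod_cast hM1, ?_, by exact_mod_cast Nat.lt_floor_add_one _, ?_, ?_⟩
  · have h1 : ⌊x * M⌋₊ < M := by
      rw [Nat.floor_lt (by positivity)]
      linarith
    omega
  · have h1 : (M : ℝ) * (1 - x) ≤ (K0 / (1 - x) + 1) * (1 - x) := by gcongr
    have h2 : ((K0 : ℝ) / (1 - x) + 1) * (1 - x) = K0 + (1 - x) := by field_simp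
    push_cast
    linarith
  · intro S hS0 hS
    obtain ⟨n', rfl⟩ : ∃ n', n = n' + 1 := ⟨n - 1, by omega⟩
    set A := (M : ℝ) ^ (n' + 1) * (1 - x ^ (n' + 1)) with hA
    have hxn : x ^ (n' + 1) ≤ x := pow_le_of_le_one hx.le hx1.le (by omega)
    have hA1 : (M : ℝ) ^ (n' + 1) * (1 - x) ≤ A := by
      rw [hA]; gcongr
    have hMn : (1 : ℝ) ≤ (M : ℝ) ^ n' := one_le_pow₀ hM1
    have hA2 : (M : ℝ) ^ n' * K0 ≤ A := by
      calc (M : ℝ) ^ n' * K0 ≤ (M : ℝ) ^ n' * (M * (1 - x)) := by gcongr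
        _ = (M : ℝ) ^ (n' + 1) * (1 - x) := by ring
        _ ≤ A := hA1
    have hA0 : 0 ≤ A := le_trans (by positivity) hA2
    have hA3 : (K0 : ℝ) ≤ A := le_trans (le_mul_of_one_le_left (by positivity) hMn) hA2
    -- p
    have hp : ((⌊x * M⌋₊ : ℝ) + 1) ≤ x * M + 1 := by
      have := Nat.floor_le (show 0 ≤ x * M by positivity)
      linarith
    have hpn : ((⌊x * M⌋₊ : ℝ) + 1) ^ (n' + 1) ≤ (x * M) ^ (n' + 1) + (n' + 1) * (M : ℝ) ^ n' :=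
      (pow_le_pow_left₀ (by positivity) hp _).trans (pow_succ_le n' (by positivity) hxM)
    have hxMn : (x * (M : ℝ)) ^ (n' + 1) = (M : ℝ) ^ (n' + 1) - A := by
      rw [hA, mul_pow]; ring
    have hS2 : (M : ℝ) ^ (n' + 1) * S ≤ (1 - ε) * A := by
      calc (M : ℝ) ^ (n' + 1) * S ≤ (M : ℝ) ^ (n' + 1) * ((1 - ε) * (1 - x ^ (n' + 1))) := by gcongr
        _ = (1 - ε) * A := by rw [hA]; ring
    have hmain : (1 + 1 / (L : ℝ)) ^ (n' + 1) * ((M : ℝ) ^ (n' + 1) * S) ≤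
        (1 + ε / 4) * ((1 - ε) * A) := by
      have h0 : 0 ≤ (M : ℝ) ^ (n' + 1) * S := by positivity
      calc (1 + 1 / (L : ℝ)) ^ (n' + 1) * ((M : ℝ) ^ (n' + 1) * S)
          ≤ (1 + ε / 4) * ((M : ℝ) ^ (n' + 1) * S) := by gcongr
        _ ≤ _ := by gcongr
    have h5 : (1 + ε / 4) * ((1 - ε) * A) ≤ (1 - 3 * ε / 4) * A := by
      nlinarith [mul_nonneg (mul_nonneg hε.le hε.le) hA0]
    -- n M^(n-1) + L <= (ε / 2) A
    have h6 : 2 * ((n' + 1 : ℝ) + L) * (M : ℝ) ^ n' ≤ ε * A := by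
      push_cast at hK0'
      calc 2 * ((n' + 1 : ℝ) + L) * (M : ℝ) ^ n' ≤ ε * K0 * (M : ℝ) ^ n' := by gcongr
        _ = ε * ((M : ℝ) ^ n' * K0) := by ring
        _ ≤ ε * A := by gcongr
    have h7 : (L : ℝ) ≤ L * (M : ℝ) ^ n' := le_mul_of_one_le_right (by positivity) hMn
    push_cast
    nlinarith
end P209.Asy
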