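import Vale.Agent.P209.Volume

/-!
P209, asymptotically sharp volume condition (one arbitrary ball, the others small): module
statements.  Owner helper12.
-/

namespace P209.Asy

/-- BK: bin packing with bins of capacity `K * D ^ J` (from `binpack` with `N * K` bins and
`Fin.divNat`). -/
def StmtBK : Prop := ∀ {ι : Type} [Fintype ι] [DecidableEq ι] (D J N K : ℕ), 1 ≤ D →
  ∀ (j : ι → ℕ), (∀ i, j i ≤ J) → ∀ (s : Finset ι), ∑ i ∈ s, D ^ (J - j i) ≤ N * K * D ^ J →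
    ∃ p : ι → Option (Fin N), (∀ i ∈ s, p i ≠ none) ∧
      ∀ a : Fin N, ∑ i ∈ s with p i = some a, D ^ (J - j i) ≤ K * D ^ J

/-- CELL: a cell of size `b` is cut into `μ ^ n` cells of size `b / μ` (`fits_grid`), which are
filled dyadically (`binpack`, `fits_levels`); same proof as the step in `fits_levels`. -/
def StmtCELL : Prop := ∀ (n : ℕ), 0 < n → ∀ (μ J : ℕ), 1 ≤ μ → ∀ {ι : Type} [Fintype ι]
  (j : ι → ℕ), (∀ i, j i ≤ J) → ∑ i, (2 ^ n) ^ (J - j i) ≤ μ ^ n * (2 ^ n) ^ J →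
  ∀ b : ℝ, 0 < b → Fits n b (fun i => b / μ / 2 ^ (j i))

/-- SHELL: the simplex of size `b * M` contains the simplex of size `b * p` and `N` cells of size
`b`, if `N + p ^ n ≤ M ^ n` (induction on `M` from `fits_shell` with `R = b * (m + 1)`,
`card_TopW`, `Fits.refine`). -/
def StmtSHELL : Prop := ∀ (n : ℕ), 0 < n → ∀ (p M N : ℕ), p ≤ M → N + p ^ n ≤ M ^ n →
  ∀ b : ℝ, 0 < b → Fits n (b * M) (fun o : Option (Fin N) => o.elim (b * p) (fun _ => b))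

/-- TYPES: items of size `b / m i / 2 ^ k i` with `L ≤ m i < 2 L` in `N` cells of size `b`.
(`thm (hBK : StmtBK) (hC : StmtCELL) : StmtTYPES`.  For each type `m = L + τ`, `τ : Fin L`, use
`N_τ = ⌈W_τ / (m ^ n * D ^ J)⌉` cells, `W_τ = ∑_{m i = m} D ^ (J - k i)`, `D = 2 ^ n`;
`∑ N_τ ≤ ∑ i, 1 / (m i * 2 ^ k i) ^ n + L ≤ N`; outer family reindexed by
`Option (Σ τ : Fin L, Fin (N_τ))`, then `Fits.refine`, fibre over a cell by CELL.) -/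
def StmtTYPES : Prop := ∀ (n : ℕ), 0 < n → ∀ (N L : ℕ), 1 ≤ L → ∀ (R ρ b : ℝ), 0 < b →
  Fits n R (fun o : Option (Fin N) => o.elim ρ (fun _ => b)) →
  ∀ {κ : Type} [Fintype κ] (m k : κ → ℕ), (∀ i, L ≤ m i) → (∀ i, m i < 2 * L) →
  (∑ i, 1 / ((m i : ℝ) * 2 ^ k i) ^ n) + L ≤ N →
  Fits n R (fun o : Option κ => o.elim ρ (fun i => b / m i / 2 ^ (k i)))

/-- ITEM: type and level of one ball (`exists_level` with `b / L`, then `m = ⌈b / r / 2 ^ k⌉ - 1`). -/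
def StmtITEM : Prop := ∀ (L : ℕ), 1 ≤ L → ∀ (b r : ℝ), 0 < r → r < b / L →
  ∃ m k : ℕ, L ≤ m ∧ m < 2 * L ∧ r < b / m / 2 ^ k ∧ b / m / 2 ^ k ≤ (1 + 1 / (L : ℝ)) * r

/-- CHOICE: `L` with `(1 + 1/L)^n ≤ 1 + ε/4`, then `M ≥ 4 n 2^n / ε^2, 2 L / ε^2, 1 / ε`, and
`p = ⌊x M⌋ + 1`. -/
def StmtCHOICE : Prop := ∀ (n : ℕ), 0 < n → ∀ ε : ℝ, 0 < ε → ε < 1 → ∃ L M : ℕ, 1 ≤ L ∧ 1 ≤ M ∧
  ∀ x : ℝ, 0 < x → x ≤ 1 - ε → ∃ p : ℕ, p ≤ M ∧ x * M < p ∧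
    ∀ S : ℝ, 0 ≤ S → S ≤ (1 - ε) * (1 - x ^ n) →
      (1 + 1 / (L : ℝ)) ^ n * ((M : ℝ) ^ n * S) + L ≤ (M : ℝ) ^ n - (p : ℝ) ^ n

end P209.Asy
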