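import Vale.Agent.P209.Asy.Defs
import Vale.Agent.P209.Asy.Choice2

/-! P209, asymptotically sharp volume condition: assembly. -/

namespace P209.Asy

theorem final (hS : StmtSHELL) (hT : StmtTYPES) (hI : StmtITEM) (n : ℕ)
    (hn : 1 ≤ n) (ε : ℝ) (hε : 0 < ε) (hε1 : ε < 1) :
    ∃ δ : ℝ, 0 < δ ∧ ∀ (R : ℝ), 0 < R → ∀ (k : ℕ) (r : Fin k → ℝ) (i : Fin k), (∀ j, 0 < r j) →
      r i < R → (∀ j, j ≠ i → r j ≤ δ * (R - r i)) →
      ∑ j ∈ Finset.univ.erase i, r j ^ n ≤ (1 - ε) * (R ^ n - r i ^ n) → Packs n k R r := by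
  classical
  obtain ⟨L, K, hL, hK, h⟩ := choice2 n hn ε hε hε1
  have hLr : (1 : ℝ) ≤ L := by exact_mod_cast hL
  have hKr : (1 : ℝ) ≤ K := by exact_mod_cast hK
  refine ⟨1 / (2 * L * K), by positivity, ?_⟩
  intro R hR k r i hr hri hrj hvol
  obtain ⟨M, p, hM, hpM, hxp, hMK, hS'⟩ := h (r i / R) (div_pos (hr i) hR)
    (by rwa [div_lt_one hR])
  have hMr : (1 : ℝ) ≤ M := by exact_mod_cast hM
  set b := R / M with hb
  have hb0 : 0 < b := by positivity
  have hbM : b * M = R := by rw [hb]; field_simp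
  have hRK : R - r i ≤ K * b := by
    have e : R - r i = (M * (1 - r i / R)) * b := by rw [hb]; field_simp
    rw [e]
    gcongr
  have hitem : ∀ j : {j : Fin k // j ≠ i}, ∃ m k : ℕ, L ≤ m ∧ m < 2 * L ∧ r j.1 < b / m / 2 ^ k ∧
      b / m / 2 ^ k ≤ (1 + 1 / (L : ℝ)) * r j.1 := by
    intro j
    apply hI L hL b (r j.1) (hr j.1)
    have h1 := hrj j.1 j.2
    have h2 : 1 / (2 * (L : ℝ) * K) * (R - r i) ≤ 1 / (2 * (L : ℝ) * K) * (K * b) := by gcongr
    have h4 : 1 / (2 * (L : ℝ) * K) * (K * b) = b / L / 2 := by field_simp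
    have h3 : 0 < b / L := by positivity
    linarith
  choose m l h1 h2 h3 h4 using hitem
  have hvol' : ∑ j : {j : Fin k // j ≠ i}, (r j.1 / R) ^ n ≤ (1 - ε) * (1 - (r i / R) ^ n) := by
    have e1 : ∑ j : {j : Fin k // j ≠ i}, (r j.1 / R) ^ n =
        (∑ j ∈ Finset.univ.erase i, r j ^ n) / R ^ n := by
      rw [Finset.sum_div]
      have e2 : ∀ j ∈ Finset.univ.erase i, r j ^ n / R ^ n = (r j / R) ^ n := fun j _ => by
        rw [div_pow]
      rw [Finset.sum_congr rfl e2]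
      exact (Finset.sum_subtype (Finset.univ.erase i) (p := fun j => j ≠ i)
        (fun x => by simp) (fun j => (r j / R) ^ n)).symm
    rw [e1, div_le_iff₀ (by positivity)]
    refine hvol.trans (le_of_eq ?_)
    rw [div_pow]
    field_simp
  have hS0 : 0 ≤ ∑ j : {j : Fin k // j ≠ i}, (r j.1 / R) ^ n :=
    Finset.sum_nonneg fun j _ => by have := hr j.1; positivity
  have hkey := hS' _ hS0 hvol'
  have hpn : p ^ n ≤ M ^ n := Nat.pow_le_pow_left hpM n
  have hfit := hS n hn p M (M ^ n - p ^ n) hpM (by omega) b hb0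
  rw [hbM] at hfit
  have hsum : (∑ j : {j : Fin k // j ≠ i}, 1 / ((m j : ℝ) * 2 ^ l j) ^ n) + L ≤
      ((M ^ n - p ^ n : ℕ) : ℝ) := by
    have e1 : ((M ^ n - p ^ n : ℕ) : ℝ) = (M : ℝ) ^ n - (p : ℝ) ^ n := by
      rw [Nat.cast_sub hpn]; push_cast; ring
    rw [e1]
    refine le_trans ?_ hkey
    gcongr
    rw [Finset.mul_sum, Finset.mul_sum]
    apply Finset.sum_le_sum
    intro j _
    have hm : (1 : ℝ) ≤ m j := by exact_mod_cast hL.trans (h1 j)
    have e2 : 1 / ((m j : ℝ) * 2 ^ l j) = (b / m j / 2 ^ l j) / b := by field_simp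
    have e3 : (1 + 1 / (L : ℝ)) ^ n * ((M : ℝ) ^ n * (r j.1 / R) ^ n) =
        ((1 + 1 / (L : ℝ)) * r j.1 / b) ^ n := by
      rw [← mul_pow, ← mul_pow]
      congr 1
      rw [hb]
      field_simp
    rw [e3, ← one_div_pow, e2]
    apply pow_le_pow_left₀ (by positivity)
    exact div_le_div_of_nonneg_right (h4 j) hb0.le
  have hfin := hT n hn (M ^ n - p ^ n) L hL R (b * p) b hb0 hfit m l h1 h2 hsum
  have hinj : Function.Injective
      (fun j : Fin k => if hj : j = i then (none : Option {j : Fin k // j ≠ i}) else some ⟨j, hj⟩) := by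
    intro a c hac
    by_cases ha : a = i
    · by_cases hc : c = i
      · rw [ha, hc]
      · simp [ha, hc] at hac
    · by_cases hc : c = i
      · simp [ha, hc] at hac
      · simpa [ha, hc] using hac
  refine packs_of_fits (hfin.reindex _ hinj) ?_
  intro j
  by_cases hj : j = i
  · simp only [hj, dif_pos, Option.elim_none]
    rw [div_mul_eq_mul_div, div_lt_iff₀ hR] at hxp
    have : r i * M < p * (b * M) := by rw [hbM]; exact hxp
    have hM0 : (0 : ℝ) < M := by linarith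
    nlinarith
  · simp only [hj, dif_neg, not_false_eq_true, Option.elim_some]
    exact h3 ⟨j, hj⟩

end P209.Asy
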