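import Vale.Agent.P209.Asy.Defs

namespace P209.Asy.ITEM

theorem thm : StmtITEM := by
  intro L hL b r hr hrb
  have hLr : (1 : ℝ) ≤ L := by exact_mod_cast hL
  have hL0 : (0 : ℝ) < L := by linarith
  obtain ⟨k, h1, h2⟩ := exists_level hr hrb
  have h2k : (0 : ℝ) < 2 ^ k := by positivity
  -- `y = b / r / 2 ^ k`, `L < y ≤ 2 L`
  have hb : 0 < b := by
    have : 0 < b / L := hr.trans hrb
    exact (div_pos_iff_of_pos_right hL0).1 this
  set y := b / r / 2 ^ k with hy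
  have hy1 : (L : ℝ) < y := by
    rw [hy, div_div, lt_div_iff₀ (by positivity)]
    rw [div_div, lt_div_iff₀ (by positivity)] at h1
    nlinarith
  have hy2 : y ≤ 2 * L := by
    rw [hy, div_div, div_le_iff₀ (by positivity)]
    rw [div_div, div_le_iff₀ (by positivity)] at h2
    nlinarith
  have hyp : 0 < y := by linarith
  have hc1 : y ≤ ⌈y⌉₊ := Nat.le_ceil y
  have hc2 : (⌈y⌉₊ : ℝ) < y + 1 := Nat.ceil_lt_add_one hyp.le
  have hcL : L < ⌈y⌉₊ := by
    rw [Nat.lt_ceil]; exact hy1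
  have hc2L : ⌈y⌉₊ ≤ 2 * L := by
    rw [Nat.ceil_le]; push_cast; exact hy2
  obtain ⟨m, hm⟩ : ∃ m, ⌈y⌉₊ = m + 1 := ⟨⌈y⌉₊ - 1, by omega⟩
  rw [hm] at hc1 hc2 hcL hc2L
  push_cast at hc1 hc2
  have hmL : L ≤ m := by omega
  have hmLr : (L : ℝ) ≤ m := by exact_mod_cast hmL
  have hm0 : (0 : ℝ) < m := by linarith
  have hyr : b = y * r * 2 ^ k := by rw [hy]; field_simp
  refine ⟨m, k, hmL, by omega, ?_, ?_⟩
  · rw [div_div, lt_div_iff₀ (by positivity), hyr]
    have : (m : ℝ) < y := by linarith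
    have h3 : (m : ℝ) * (r * 2 ^ k) < y * (r * 2 ^ k) := by gcongr
    linarith
  · rw [div_div, div_le_iff₀ (by positivity), hyr]
    have h3 : y ≤ (1 + 1 / (L : ℝ)) * m := by
      have : (m : ℝ) / L ≥ 1 := by rw [ge_iff_le, one_le_div hL0]; exact hmLr
      have e : (1 + 1 / (L : ℝ)) * m = m + m / L := by ring
      rw [e]; linarith
    have h4 : y * (r * 2 ^ k) ≤ ((1 + 1 / (L : ℝ)) * m) * (r * 2 ^ k) := by gcongr
    linarith

end P209.Asy.ITEM
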