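import Vale.Agent.P209.Asy.Defs

/-! P209, module SHELL: peeling shells of cells off a simplex. -/

namespace P209.Asy.SHELL

open P209

theorem thm : StmtSHELL := by
  intro n hn p M N hpM
  revert N
  induction M, hpM using Nat.le_induction with
  | base =>
    intro N hN b hb
    have hN0 : N = 0 := by omega
    subst hN0
    have e : (fun o : Option (Fin 0) => o.elim (b * (p : ℝ)) (fun _ => b)) =
        fun _ => b * (p : ℝ) := by
      funext o
      cases o with
      | none => rfl
      | some i => exact i.elim0
    rw [e]
    have : Subsingleton (Option (Fin 0)) := ⟨fun a c => by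
      cases a with
      | none =>
        cases c with
        | none => rfl
        | some i => exact i.elim0
      | some i => exact i.elim0⟩
    exact fits_self _
  | succ M hpM ih =>
    intro N hN b hb
    classical
    obtain ⟨T, hT⟩ : ∃ T, T = Fintype.card (TopW n (M + 1)) := ⟨_, rfl⟩
    have hcard := card_TopW n M
    rw [← hT] at hcard
    have hpow : p ^ n ≤ M ^ n := Nat.pow_le_pow_left hpM n
    have hN1 : (N - T) + p ^ n ≤ M ^ n := by omega
    have hin := ih (N - T) hN1 b hb
    obtain ⟨E⟩ : Nonempty (Fin T ≃ TopW n (M + 1)) := ⟨Fintype.equivOfCardEq (by simp [hT])⟩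
    have hsh := fits_shell hn hb (m := M) (R := b * ((M + 1 : ℕ) : ℝ)) (by push_cast; exact le_rfl)
    let P : Option (Fin N) → Option (TopW n (M + 1)) := fun o => o.bind fun i =>
      if h : (i : ℕ) < N - T then none
      else some (E ⟨(i : ℕ) - (N - T), by have := i.2; omega⟩)
    have hP0 : ∀ i : Fin N, P (some i) = none → (i : ℕ) < N - T := by
      intro i hi
      by_contra hc
      simp only [P, Option.bind_some, dif_neg hc] at hi
      exact absurd hi (by simp)
    have hP1 : ∀ (i : Fin N) (c : TopW n (M + 1)), P (some i) = some c →
        ∃ h : (i : ℕ) - (N - T) < T, ¬ (i : ℕ) < N - T ∧ E ⟨(i : ℕ) - (N - T), h⟩ = c := by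
      intro i c hi
      by_cases hc : (i : ℕ) < N - T
      · simp only [P, Option.bind_some, dif_pos hc] at hi
        exact absurd hi (by simp)
      · simp only [P, Option.bind_some, dif_neg hc, Option.some.injEq] at hi
        exact ⟨by have := i.2; omega, hc, hi⟩
    refine hsh.refine P ?_
    intro o
    cases o with
    | none =>
      show Fits n (b * ((M + 1 : ℕ) : ℝ) - b) (fun k : {k : Option (Fin N) // P k = none} =>
        k.1.elim (b * (p : ℝ)) (fun _ => b))
      have hR : b * ((M + 1 : ℕ) : ℝ) - b = b * (M : ℝ) := by push_cast; ring
      rw [hR]
      let e : {k : Option (Fin N) // P k = none} → Option (Fin (N - T)) := fun k =>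
        k.1.bind fun i => if h : (i : ℕ) < N - T then some ⟨(i : ℕ), h⟩ else none
      have he0 : ∀ h, e ⟨none, h⟩ = none := fun h => rfl
      have he1 : ∀ (i : Fin N) (h : P (some i) = none),
          e ⟨some i, h⟩ = some ⟨(i : ℕ), hP0 i h⟩ := by
        intro i h
        simp only [e, Option.bind_some, dif_pos (hP0 i h)]
      have hinj : Function.Injective e := by
        rintro ⟨k, hk⟩ ⟨l, hl⟩ hkl
        cases k with
        | none =>
          cases l with
          | none => rfl
          | some j =>
            rw [he0, he1] at hkl
            exact absurd hkl (by simp)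
        | some i =>
          cases l with
          | none =>
            rw [he0, he1] at hkl
            exact absurd hkl (by simp)
          | some j =>
            rw [he1, he1, Option.some.injEq, Fin.mk.injEq] at hkl
            have hij : i = j := Fin.ext hkl
            subst hij
            rfl
      have h := hin.reindex e hinj
      have e3 : (fun k : {k : Option (Fin N) // P k = none} =>
          (e k).elim (b * (p : ℝ)) (fun _ => b)) =
          fun k : {k : Option (Fin N) // P k = none} => k.1.elim (b * (p : ℝ)) (fun _ => b) := by
        funext k
        obtain ⟨k, hk⟩ := k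
        cases k with
        | none => rw [he0]; rfl
        | some i => rw [he1]; rfl
      rw [← e3]
      exact h
    | some c =>
      show Fits n b (fun k : {k : Option (Fin N) // P k = some c} =>
        k.1.elim (b * (p : ℝ)) (fun _ => b))
      have hne : ∀ k : {k : Option (Fin N) // P k = some c}, ∃ i, k.1 = some i := by
        rintro ⟨k, hk⟩
        cases k with
        | none => exact absurd hk (by simp [P])
        | some i => exact ⟨i, rfl⟩
      have hs : Subsingleton {k : Option (Fin N) // P k = some c} := by
        refine ⟨fun k l => ?_⟩
        obtain ⟨i, hi⟩ := hne k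
        obtain ⟨j, hj⟩ := hne l
        have h1 := k.2
        have h2 := l.2
        rw [hi] at h1
        rw [hj] at h2
        obtain ⟨a1, a2, a3⟩ := hP1 i c h1
        obtain ⟨b1, b2, b3⟩ := hP1 j c h2
        have h3 := E.injective (a3.trans b3.symm)
        rw [Fin.mk.injEq] at h3
        have hij : i = j := Fin.ext (by omega)
        apply Subtype.ext
        rw [hi, hj, hij]
      have e4 : (fun k : {k : Option (Fin N) // P k = some c} =>
          k.1.elim (b * (p : ℝ)) (fun _ => b)) = fun _ => b := by
        funext k
        obtain ⟨i, hi⟩ := hne k
        rw [hi]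
        rfl
      rw [e4]
      exact fits_self _

end P209.Asy.SHELL
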