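import Vale.Agent.P209.Asy.Defs

namespace P209.Asy.TYPES

theorem thm (hBK : StmtBK) (hC : StmtCELL) : StmtTYPES := by
  intro n hn N L hL R ρ b hb hout κ _ m k hm1 hm2 hsum
  classical
  obtain ⟨J, hJ⟩ : ∃ J, ∀ i, k i ≤ J :=
    ⟨Finset.univ.sup k, fun i => Finset.le_sup (Finset.mem_univ i)⟩
  -- the types
  set s : Fin L → Finset κ := fun τ => Finset.univ.filter fun i => m i = L + τ with hs
  set W : Fin L → ℕ := fun τ => ∑ i ∈ s τ, (2 ^ n) ^ (J - k i) with hW
  set A : Fin L → ℕ := fun τ => (L + (τ : ℕ)) ^ n * (2 ^ n) ^ J with hA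
  have hA0 : ∀ τ, 0 < A τ := fun τ => by
    rw [hA]; positivity
  set Nt : Fin L → ℕ := fun τ => ⌈(W τ : ℝ) / A τ⌉₊ with hNt
  have hWN : ∀ τ, W τ ≤ Nt τ * (L + (τ : ℕ)) ^ n * (2 ^ n) ^ J := by
    intro τ
    have h1 : (W τ : ℝ) / A τ ≤ Nt τ := Nat.le_ceil _
    have hAr : (0 : ℝ) < A τ := by exact_mod_cast hA0 τ
    rw [div_le_iff₀ hAr] at h1
    have h2 : W τ ≤ Nt τ * A τ := by exact_mod_cast h1
    rw [mul_assoc]
    exact h2
  choose p hp1 hp2 using fun τ : Fin L =>
    hBK (2 ^ n) J (Nt τ) ((L + (τ : ℕ)) ^ n) Nat.one_le_two_pow k hJ (s τ) (hWN τ)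
  -- number of cells
  have hcard : Fintype.card (Σ τ : Fin L, Fin (Nt τ)) ≤ N := by
    have h1 : Fintype.card (Σ τ : Fin L, Fin (Nt τ)) = ∑ τ, Nt τ := by simp
    rw [h1]
    have h2 : ((∑ τ, Nt τ : ℕ) : ℝ) ≤ N := by
      refine le_trans ?_ hsum
      push_cast
      have h3 : ∀ τ : Fin L, (Nt τ : ℝ) ≤ ∑ i ∈ s τ, 1 / ((m i : ℝ) * 2 ^ k i) ^ n + 1 := by
        intro τ
        have hAr : (0 : ℝ) < A τ := by exact_mod_cast hA0 τ
        have h4 : (Nt τ : ℝ) ≤ (W τ : ℝ) / A τ + 1 := (Nat.ceil_lt_add_one (by positivity)).le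
        refine h4.trans (add_le_add_left (le_of_eq ?_) _)
        rw [hW, hA]
        push_cast
        rw [Finset.sum_div]
        apply Finset.sum_congr rfl
        intro i hi
        have hmi : m i = L + τ := (Finset.mem_filter.1 hi).2
        have hLt : (0 : ℝ) < (L : ℝ) + (τ : ℕ) := by
          have : (1 : ℝ) ≤ L := by exact_mod_cast hL
          positivity
        rw [hmi]
        push_cast
        have e : ((2 : ℝ) ^ n) ^ J = ((2 : ℝ) ^ n) ^ (J - k i) * ((2 : ℝ) ^ (k i)) ^ n := by
          rw [← pow_mul (2 : ℝ) (k i) n, mul_comm (k i) n, pow_mul, ← pow_add]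
          congr 1
          have := hJ i
          omega
        rw [e, mul_pow]
        field_simp
      calc ∑ τ, (Nt τ : ℝ) ≤ ∑ τ : Fin L, (∑ i ∈ s τ, 1 / ((m i : ℝ) * 2 ^ k i) ^ n + 1) :=
            Finset.sum_le_sum fun τ _ => h3 τ
        _ = (∑ τ : Fin L, ∑ i ∈ s τ, 1 / ((m i : ℝ) * 2 ^ k i) ^ n) + L := by
            rw [Finset.sum_add_distrib]; simp
        _ ≤ _ := by
            gcongr
            rw [← Finset.sum_biUnion]
            · exact Finset.sum_le_sum_of_subset_of_nonneg (Finset.subset_univ _)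
                (fun i _ _ => by positivity)
            · intro τ _ τ' _ hne
              rw [Function.onFun, Finset.disjoint_left]
              intro i hi hi'
              have h5 := (Finset.mem_filter.1 hi).2
              have h6 := (Finset.mem_filter.1 hi').2
              exact hne (Fin.ext (by omega))
    exact_mod_cast h2
  -- the outer family
  obtain ⟨e⟩ : Nonempty ((Σ τ : Fin L, Fin (Nt τ)) ↪ Fin N) :=
    Function.Embedding.nonempty_of_card_le (by simpa using hcard)
  have hout2 : Fits n R (fun o : Option (Σ τ : Fin L, Fin (Nt τ)) => o.elim ρ (fun _ => b)) := by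
    have h1 := hout.reindex (Option.map e) (Option.map_injective e.injective)
    have h2 : (fun o : Option (Σ τ : Fin L, Fin (Nt τ)) => o.elim ρ (fun _ => b)) =
        fun o => (Option.map e o).elim ρ (fun _ => b) := by
      funext o
      cases o <;> rfl
    rw [h2]
    exact h1
  -- types of the items
  have hτ : ∀ i, ∃ τ : Fin L, m i = L + τ := fun i =>
    ⟨⟨m i - L, by have := hm1 i; have := hm2 i; omega⟩, by
      have := hm1 i
      show m i = L + (m i - L)
      omega⟩
  choose ty hty using hτ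
  have hmem : ∀ i, i ∈ s (ty i) := fun i => Finset.mem_filter.2 ⟨Finset.mem_univ i, hty i⟩
  have hp3 : ∀ i, ∃ a, p (ty i) i = some a := fun i =>
    Option.ne_none_iff_exists'.1 (hp1 (ty i) i (hmem i))
  choose q hq using hp3
  set P : Option κ → Option (Σ τ : Fin L, Fin (Nt τ)) := fun o =>
    o.map fun i => ⟨ty i, q i⟩ with hP
  refine hout2.refine P ?_
  intro o
  cases o with
  | none =>
    have h1 : ∀ o : Option κ, P o = none → o = none := by
      intro o ho
      cases o with
      | none => rfl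
      | some i => simp [hP] at ho
    have hsub : Subsingleton {o : Option κ // P o = none} :=
      ⟨fun a c => Subtype.ext ((h1 a.1 a.2).trans (h1 c.1 c.2).symm)⟩
    have e1 : (fun o : {o : Option κ // P o = none} =>
        (o.1 : Option κ).elim ρ (fun i => b / m i / 2 ^ (k i))) = fun _ => ρ := by
      funext o
      rw [h1 o.1 o.2]
      rfl
    show Fits n ρ _
    rw [e1]
    exact fits_self _
  | some c =>
    obtain ⟨τ, a⟩ := c
    show Fits n b (fun o : {o : Option κ // P o = some ⟨τ, a⟩} =>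
        (o.1 : Option κ).elim ρ (fun i => b / m i / 2 ^ (k i)))
    -- the items in this cell
    have hin : ∀ o : {o : Option κ // P o = some ⟨τ, a⟩}, ∃ i : κ, o.1 = some i ∧
        (⟨ty i, q i⟩ : Σ τ : Fin L, Fin (Nt τ)) = ⟨τ, a⟩ := by
      rintro ⟨o, ho⟩
      cases o with
      | none => simp [hP] at ho
      | some i => exact ⟨i, rfl, by simpa [hP] using ho⟩
    choose g hg1 hg2 using hin
    have hgi : Function.Injective g := by
      intro x y hxy
      apply Subtype.ext
      rw [hg1 x, hg1 y, hxy]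
    have key : ∀ (T : Fin L) (qq : Fin (Nt T)) (x : κ), p T x = some qq →
        (⟨T, qq⟩ : Σ τ : Fin L, Fin (Nt τ)) = ⟨τ, a⟩ → T = τ ∧ p τ x = some a := by
      intro T qq x h3 h2
      cases h2
      exact ⟨rfl, h3⟩
    have hgp : ∀ o, ty (g o) = τ ∧ p τ (g o) = some a := fun o =>
      key _ _ _ (hq (g o)) (hg2 o)
    have e1 : (fun o : {o : Option κ // P o = some ⟨τ, a⟩} =>
        (o.1 : Option κ).elim ρ (fun i => b / m i / 2 ^ (k i))) =
        fun o => b / ((L + (τ : ℕ) : ℕ) : ℝ) / 2 ^ (k (g o)) := by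
      funext o
      rw [hg1 o]
      show b / m (g o) / 2 ^ (k (g o)) = _
      rw [hty (g o), (hgp o).1]
    rw [e1]
    have : Fintype {o : Option κ // P o = some ⟨τ, a⟩} := Fintype.ofFinite _
    apply hC n hn (L + τ) J (by omega) (fun o => k (g o)) (fun o => hJ _) _ b hb
    refine le_trans ?_ (hp2 τ a)
    calc ∑ o, (2 ^ n) ^ (J - k (g o)) = ∑ i ∈ Finset.univ.image g, (2 ^ n) ^ (J - k i) := by
          rw [Finset.sum_image fun x _ y _ h => hgi h]
      _ ≤ _ := by
          apply Finset.sum_le_sum_of_subset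
          intro i hi
          obtain ⟨o, _, rfl⟩ := Finset.mem_image.1 hi
          refine Finset.mem_filter.2 ⟨?_, (hgp o).2⟩
          refine Finset.mem_filter.2 ⟨Finset.mem_univ _, ?_⟩
          rw [hty (g o), (hgp o).1]

end P209.Asy.TYPES
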