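import Vale.Agent.P209.Asy.Final
import Vale.Agent.P209.Asy.BK
import Vale.Agent.P209.Asy.CELL
import Vale.Agent.P209.Asy.SHELL
import Vale.Agent.P209.Asy.TYPES
import Vale.Agent.P209.Asy.ITEM

/-! P209, several arbitrary balls and dust: module statements. Owner helper12. -/

namespace P209.Asy

/-- PART: greedy partition. -/
def StmtPART : Prop := ∀ {ι κ : Type} [Fintype ι] [Fintype κ] [Nonempty ι] [DecidableEq ι]
  (c : ι → ℝ) (v : κ → ℝ) (η : ℝ), (∀ j, 0 ≤ v j) → (∀ j, v j ≤ η) → (∀ a, 0 ≤ c a) →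
  ∑ j, v j ≤ ∑ a, (c a - η) →
  ∃ P : κ → ι, ∀ a, ∑ j with P j = a, v j ≤ c a

/-- FF: the one-ball statement as a statement about `Fits`. -/
def StmtFF : Prop := ∀ (n : ℕ), 1 ≤ n → ∀ ε : ℝ, 0 < ε → ε < 1 → ∃ δ : ℝ, 0 < δ ∧
  ∀ (R ρ : ℝ), 0 < ρ → ρ < R → ∀ {κ : Type} [Fintype κ] (r : κ → ℝ), (∀ j, 0 < r j) →
    (∀ j, r j ≤ δ * (R - ρ)) → ∑ j, r j ^ n ≤ (1 - ε) * (R ^ n - ρ ^ n) →
    ∃ (s0 : ℝ) (s : κ → ℝ), ρ < s0 ∧ (∀ j, r j < s j) ∧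
      Fits n R (fun o : Option κ => o.elim s0 s)

end P209.Asy
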