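import Vale.Agent.P209.Asy.MDefs

/-! P209: `m ^ n` arbitrary balls of capacity less than `R / m` and dust. -/

namespace P209.Asy

theorem fits_sigma {n : ℕ} {R b : ℝ} {ι : Type} {κ : ι → Type} {t : ∀ a, κ a → ℝ}
    (h : Fits n R (fun _ : ι => b)) (ht : ∀ a, Fits n b (t a)) :
    Fits n R (fun x : Σ a, κ a => t x.1 x.2) := by
  refine h.refine Sigma.fst ?_
  intro a
  have h1 := (ht a).reindex (fun x : {x : Σ a, κ a // x.1 = a} => (x.2 ▸ x.1.2 : κ a)) (by
    rintro ⟨⟨a1, y1⟩, h1⟩ ⟨⟨a2, y2⟩, h2⟩ he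
    cases h1
    cases h2
    simp only at he
    rw [he])
  have e : (fun k : {x : Σ a, κ a // x.1 = a} => t k.1.1 k.1.2) =
      fun x : {x : Σ a, κ a // x.1 = a} => t a (x.2 ▸ x.1.2 : κ a) := by
    funext ⟨⟨a1, y1⟩, h1⟩
    cases h1
    rfl
  rw [e]
  exact h1

theorem multi (hP : StmtPART) (hF : StmtFF) (n m : ℕ) (hn : 1 ≤ n) (hm : 1 ≤ m) (ε : ℝ)
    (hε : 0 < ε) (hε1 : ε < 1) :
    ∃ δ : ℝ, 0 < δ ∧ ∀ (k : ℕ) (R : ℝ) (r : Fin k → ℝ) (B : Finset (Fin k)), 0 < R →
      (∀ j, 0 < r j) → B.card ≤ m ^ n → (∀ j ∈ B, m * r j < R) → (∀ j, j ∉ B → r j ≤ δ * R) →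
      ∑ j, r j ^ n ≤ (1 - ε) * R ^ n → Packs n k R r := by
  classical
  obtain ⟨δ1, hδ1, hff⟩ := hF n hn (ε / 4) (by linarith) (by linarith)
  have hmr : (1 : ℝ) ≤ m := by exact_mod_cast hm
  have hnr : (1 : ℝ) ≤ n := by exact_mod_cast hn
  set η : ℝ := ε / (4 * n) with hη
  have hη0 : 0 < η := by positivity
  have hnη : n * η = ε / 4 := by rw [hη]; field_simp
  have hη1 : η ≤ 1 / 4 := by
    have : 1 * η ≤ n * η := by gcongr
    linarith
  set θ : ℝ := ε / 8 with hθ
  have hθ0 : 0 < θ := by positivity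
  have hδ0 : 0 < min (ε / (8 * m)) (δ1 * η / m) := by positivity
  refine ⟨min (ε / (8 * m)) (δ1 * η / m), hδ0, ?_⟩
  set δ := min (ε / (8 * m)) (δ1 * η / m) with hδ
  intro k R r B hR hr hB hBr hsm hvol
  set b := R / m with hb
  have hb0 : 0 < b := by positivity
  have hbm : b * m = R := by rw [hb]; field_simp
  have hbn : (m : ℝ) ^ n * b ^ n = R ^ n := by rw [← mul_pow, mul_comm, hbm]
  have hRn : 0 < R ^ n := by positivity
  have hbn0 : 0 < b ^ n := by positivity
  have hmδ : (m : ℝ) * δ ≤ ε / 8 := by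
    have : δ ≤ ε / (8 * m) := min_le_left _ _
    calc (m : ℝ) * δ ≤ m * (ε / (8 * m)) := by gcongr
      _ = ε / 8 := by field_simp
  have hδR : δ * R ≤ δ1 * (η * b) := by
    have : δ ≤ δ1 * η / m := min_le_right _ _
    calc δ * R ≤ (δ1 * η / m) * R := by gcongr
      _ = δ1 * (η * b) := by rw [hb]; ring
  -- cells
  obtain ⟨β⟩ : Nonempty ({j // j ∈ B} ↪ (Fin n → Fin m)) :=
    Function.Embedding.nonempty_of_card_le (by simpa using hB)
  set ρ : (Fin n → Fin m) → ℝ := fun a =>
    if h : ∃ j : {j // j ∈ B}, β j = a then r h.choose.1 else θ * b with hρ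
  have hρβ : ∀ j : {j // j ∈ B}, ρ (β j) = r j.1 := by
    intro j
    have hex : ∃ j' : {j // j ∈ B}, β j' = β j := ⟨j, rfl⟩
    rw [hρ]
    simp only [dif_pos hex]
    rw [β.injective hex.choose_spec]
  have hρ0 : ∀ a, 0 < ρ a := by
    intro a
    rw [hρ]
    by_cases h : ∃ j : {j // j ∈ B}, β j = a
    · simp only [dif_pos h]; exact hr _
    · simp only [dif_neg h]; positivity
  have hρb : ∀ a, ρ a < b := by
    intro a
    rw [hρ]
    by_cases h : ∃ j : {j // j ∈ B}, β j = a
    · simp only [dif_pos h]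
      have := hBr _ h.choose.2
      rw [hb, lt_div_iff₀ (by linarith)]
      linarith
    · simp only [dif_neg h]
      have : θ * b < 1 * b := by
        apply mul_lt_mul_of_pos_right _ hb0
        rw [hθ]; linarith
      linarith
  -- small ones
  set c : (Fin n → Fin m) → ℝ := fun a =>
    if ρ a ≤ (1 - η) * b then (1 - ε / 4) * (b ^ n - ρ a ^ n) else 0 with hc
  have hρn : ∀ a, ρ a ^ n ≤ b ^ n := fun a => pow_le_pow_left₀ (hρ0 a).le (hρb a).le n
  have hc0 : ∀ a, 0 ≤ c a := by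
    intro a
    rw [hc]
    by_cases h : ρ a ≤ (1 - η) * b
    · simp only [if_pos h]
      exact mul_nonneg (by linarith) (by linarith [hρn a])
    · simp only [if_neg h]; exact le_rfl
  have hcl : ∀ a, (1 - ε / 4) * (b ^ n - ρ a ^ n) - ε / 4 * b ^ n ≤ c a := by
    intro a
    rw [hc]
    by_cases h : ρ a ≤ (1 - η) * b
    · simp only [if_pos h]
      have : 0 ≤ ε / 4 * b ^ n := by positivity
      linarith
    · simp only [if_neg h]
      push Not at h
      have h1 : ((1 - η) * b) ^ n ≤ ρ a ^ n :=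
        pow_le_pow_left₀ (mul_nonneg (by linarith) hb0.le) h.le n
      have h2 : 1 + (n : ℝ) * (-η) ≤ (1 + -η) ^ n := one_add_mul_le_pow (by linarith) n
      have h3 : (1 - ε / 4) * b ^ n ≤ ((1 - η) * b) ^ n := by
        rw [mul_pow]
        apply mul_le_mul_of_nonneg_right _ hbn0.le
        have e : (1 - η) = 1 + -η := by ring
        rw [e]
        linarith
      have h4 : b ^ n - ρ a ^ n ≤ ε / 4 * b ^ n := by linarith
      have h5 : 0 ≤ b ^ n - ρ a ^ n := by linarith [hρn a]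
      nlinarith
  have hρsum : ∑ a, ρ a ^ n ≤ ∑ j ∈ B, r j ^ n + ε / 8 * R ^ n := by
    have h1 : ∀ a, ρ a ^ n ≤ (∑ j : {j // j ∈ B} with β j = a, r j.1 ^ n) + (θ * b) ^ n := by
      intro a
      by_cases h : ∃ j : {j // j ∈ B}, β j = a
      · obtain ⟨j, rfl⟩ := h
        rw [hρβ j]
        have h2 : r j.1 ^ n ≤ ∑ j' : {j // j ∈ B} with β j' = β j, r j'.1 ^ n :=
          Finset.single_le_sum (f := fun j' : {j // j ∈ B} => r j'.1 ^ n)
            (fun j' _ => (pow_pos (hr _) n).le) (by simp)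
        have : 0 ≤ (θ * b) ^ n := by positivity
        linarith
      · have h2 : ρ a = θ * b := by rw [hρ]; simp only [dif_neg h]
        rw [h2]
        have : 0 ≤ ∑ j : {j // j ∈ B} with β j = a, r j.1 ^ n :=
          Finset.sum_nonneg fun j' _ => (pow_pos (hr _) n).le
        linarith
    calc ∑ a, ρ a ^ n ≤ ∑ a, ((∑ j : {j // j ∈ B} with β j = a, r j.1 ^ n) + (θ * b) ^ n) :=
          Finset.sum_le_sum fun a _ => h1 a
      _ = ∑ j ∈ B, r j ^ n + (m : ℝ) ^ n * (θ * b) ^ n := by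
          rw [Finset.sum_add_distrib, Finset.sum_fiberwise, Finset.sum_const, Finset.card_univ]
          congr 1
          · exact Finset.sum_coe_sort B (fun j => r j ^ n)
          · simp
      _ ≤ ∑ j ∈ B, r j ^ n + ε / 8 * R ^ n := by
          rw [mul_pow, mul_left_comm, hbn]
          gcongr
          calc θ ^ n ≤ θ ^ 1 := pow_le_pow_of_le_one hθ0.le (by rw [hθ]; linarith) hn
            _ = ε / 8 := by rw [pow_one]
  have hsplit : ∑ j : {j // j ∉ B}, r j.1 ^ n + ∑ j ∈ B, r j ^ n = ∑ j, r j ^ n := by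
    have h1 : ∑ j : {j // j ∉ B}, r j.1 ^ n = ∑ j ∈ Bᶜ, r j ^ n :=
      (Finset.sum_subtype Bᶜ (p := fun j => j ∉ B) (fun x => by simp) (fun j => r j ^ n)).symm
    rw [h1, add_comm]
    exact Finset.sum_add_sum_compl B _
  have hne : Nonempty (Fin n → Fin m) := ⟨fun _ => ⟨0, by omega⟩⟩
  obtain ⟨P, hPa⟩ := hP c (fun j : {j // j ∉ B} => r j.1 ^ n) ((δ * R) ^ n)
    (fun j => (pow_pos (hr _) n).le)
    (fun j => pow_le_pow_left₀ (hr _).le (hsm j.1 j.2) n) hc0 (by
      have h1 : (∑ a : Fin n → Fin m, ((1 - ε / 4) * (b ^ n - ρ a ^ n) - ε / 4 * b ^ n -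
          (δ * R) ^ n)) ≤ ∑ a, (c a - (δ * R) ^ n) :=
        Finset.sum_le_sum fun a _ => by linarith [hcl a]
      refine le_trans ?_ h1
      have h2 : (∑ a : Fin n → Fin m, ((1 - ε / 4) * (b ^ n - ρ a ^ n) - ε / 4 * b ^ n -
          (δ * R) ^ n)) = (1 - ε / 4) * (R ^ n - ∑ a, ρ a ^ n) - ε / 4 * R ^ n -
            ((m : ℝ) * δ) ^ n * R ^ n := by
        rw [Finset.sum_sub_distrib, Finset.sum_sub_distrib, ← Finset.mul_sum,
          Finset.sum_sub_distrib]
        simp only [Finset.sum_const, Finset.card_univ, Fintype.card_pi, Fintype.card_fin,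
          Finset.prod_const, nsmul_eq_mul]
        push_cast
        rw [hbn, mul_pow, mul_pow]
        have e : (m : ℝ) ^ n * (ε / 4 * b ^ n) = ε / 4 * R ^ n := by rw [← hbn]; ring
        rw [e]
        ring
      rw [h2]
      have h3 : ((m : ℝ) * δ) ^ n ≤ ε / 8 := by
        calc ((m : ℝ) * δ) ^ n ≤ ((m : ℝ) * δ) ^ 1 :=
              pow_le_pow_of_le_one (by positivity) (by linarith) hn
          _ ≤ ε / 8 := by rw [pow_one]; exact hmδ
      have h4 : ((m : ℝ) * δ) ^ n * R ^ n ≤ ε / 8 * R ^ n := by gcongr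
      have h5 : 0 ≤ ∑ a, ρ a ^ n := Finset.sum_nonneg fun a _ => (pow_pos (hρ0 a) n).le
      have h6 : 0 ≤ ε / 4 * ∑ a, ρ a ^ n := by positivity
      nlinarith)
  -- one cell
  have hcell : ∀ a, ∃ (s0 : ℝ) (s : {j : {j // j ∉ B} // P j = a} → ℝ), ρ a < s0 ∧
      (∀ j, r j.1.1 < s j) ∧
      Fits n b (fun o : Option {j : {j // j ∉ B} // P j = a} => o.elim s0 s) := by
    intro a
    have hsum : ∑ j : {j : {j // j ∉ B} // P j = a}, r j.1.1 ^ n ≤ c a := by
      refine le_trans (le_of_eq ?_) (hPa a)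
      exact (Finset.sum_subtype (Finset.univ.filter fun j => P j = a) (p := fun j => P j = a)
        (fun x => by simp) (fun j : {j // j ∉ B} => r j.1 ^ n)).symm
    by_cases h : ρ a ≤ (1 - η) * b
    · have hca : c a = (1 - ε / 4) * (b ^ n - ρ a ^ n) := by rw [hc]; simp only [if_pos h]
      rw [hca] at hsum
      exact hff b (ρ a) (hρ0 a) (hρb a) (fun j : {j : {j // j ∉ B} // P j = a} => r j.1.1)
        (fun j => hr _) (fun j => by
          refine (hsm j.1.1 j.1.2).trans (hδR.trans ?_)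
          apply mul_le_mul_of_nonneg_left _ hδ1.le
          linarith) hsum
    · have hca : c a = 0 := by rw [hc]; simp only [if_neg h]
      rw [hca] at hsum
      have hemp : IsEmpty {j : {j // j ∉ B} // P j = a} := by
        constructor
        intro j
        have h1 : r j.1.1 ^ n ≤ ∑ j : {j : {j // j ∉ B} // P j = a}, r j.1.1 ^ n :=
          Finset.single_le_sum (f := fun j : {j : {j // j ∉ B} // P j = a} => r j.1.1 ^ n)
            (fun j' _ => (pow_pos (hr _) n).le) (Finset.mem_univ j)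
        have h2 := pow_pos (hr j.1.1) n
        linarith
      refine ⟨b, fun j => hemp.elim j, hρb a, fun j => hemp.elim j, ?_⟩
      have e : (fun o : Option {j : {j // j ∉ B} // P j = a} =>
          o.elim b (fun j => hemp.elim j)) = fun _ => b := by
        funext o
        cases o with
        | none => rfl
        | some j => exact hemp.elim j
      rw [e]
      exact fits_self b
  choose s0 s hs0 hs hfit using hcell
  have hgrid := fits_grid (n := n) (by omega) hb0 m
  rw [hbm] at hgrid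
  have hall := fits_sigma (t := fun a (o : Option {j : {j // j ∉ B} // P j = a}) =>
    o.elim (s0 a) (s a)) hgrid hfit
  set e : Fin k → (Σ a, Option {j : {j // j ∉ B} // P j = a}) := fun j =>
    if h : j ∈ B then ⟨β ⟨j, h⟩, none⟩ else ⟨P ⟨j, h⟩, some ⟨⟨j, h⟩, rfl⟩⟩ with he
  have heinj : Function.Injective e := by
    intro x y hxy
    by_cases hx : x ∈ B
    · by_cases hy : y ∈ B
      · simp only [he, dif_pos hx, dif_pos hy] at hxy
        have h1 := congrArg Sigma.fst hxy
        have h2 := β.injective h1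
        exact congrArg Subtype.val h2
      · simp only [he, dif_pos hx, dif_neg hy] at hxy
        have h1 := congrArg (fun z : (Σ a, Option {j : {j // j ∉ B} // P j = a}) =>
          z.2.isSome) hxy
        simp at h1
    · by_cases hy : y ∈ B
      · simp only [he, dif_neg hx, dif_pos hy] at hxy
        have h1 := congrArg (fun z : (Σ a, Option {j : {j // j ∉ B} // P j = a}) =>
          z.2.isSome) hxy
        simp at h1
      · simp only [he, dif_neg hx, dif_neg hy] at hxy
        have h1 := congrArg (fun z : (Σ a, Option {j : {j // j ∉ B} // P j = a}) =>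
          z.2.map fun j => j.1.1) hxy
        simpa using h1
  refine packs_of_fits (hall.reindex e heinj) ?_
  intro j
  show r j < (e j).2.elim (s0 (e j).1) (s (e j).1)
  by_cases hj : j ∈ B
  · have hej : e j = ⟨β ⟨j, hj⟩, none⟩ := by simp only [he, dif_pos hj]
    rw [hej]
    have := hs0 (β ⟨j, hj⟩)
    rwa [hρβ] at this
  · have hej : e j = ⟨P ⟨j, hj⟩, some ⟨⟨j, hj⟩, rfl⟩⟩ := by simp only [he, dif_neg hj]
    rw [hej]
    exact hs (P ⟨j, hj⟩) ⟨⟨j, hj⟩, rfl⟩

end P209.Asy
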