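import Vale.Agent.P209.Asy.MDefs

/-! P209: greedy partition (helper8). -/

namespace P209.Asy.PART

theorem part {ι κ : Type} [Fintype ι] [Fintype κ] [Nonempty ι] [DecidableEq ι]
    (c : ι → ℝ) (v : κ → ℝ) (η : ℝ) (hv : ∀ j, 0 ≤ v j) (hη : ∀ j, v j ≤ η) (hc : ∀ a, 0 ≤ c a)
    (h : ∑ j, v j ≤ ∑ a, (c a - η)) :
    ∃ P : κ → ι, ∀ a, ∑ j with P j = a, v j ≤ c a := by
  classical
  have key : ∀ s : Finset κ, ∃ P : κ → ι, ∀ a, ∑ j ∈ s with P j = a, v j ≤ c a := by
    intro s
    induction s using Finset.induction_on with
    | empty =>
      refine ⟨fun _ => Classical.arbitrary ι, fun a => ?_⟩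
      rw [Finset.filter_empty, Finset.sum_empty]
      exact hc a
    | insert j0 s hj ih =>
      obtain ⟨P, hP⟩ := ih
      by_cases hex : ∃ a, (∑ j ∈ s with P j = a, v j) + v j0 ≤ c a
      · obtain ⟨a, ha⟩ := hex
        refine ⟨Function.update P j0 a, fun b => ?_⟩
        have e1 : ∑ j ∈ insert j0 s with Function.update P j0 a j = b, v j =
            (if a = b then v j0 else 0) + ∑ j ∈ s with P j = b, v j := by
          rw [Finset.sum_filter, Finset.sum_filter, Finset.sum_insert hj]
          congr 1
          · rw [Function.update_self]
          · apply Finset.sum_congr rfl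
            intro j hjs
            have hne : j ≠ j0 := by
              intro hcon
              apply hj
              rw [← hcon]
              exact hjs
            rw [Function.update_of_ne hne]
        rw [e1]
        by_cases hab : a = b
        · subst hab
          rw [if_pos rfl]
          linarith
        · rw [if_neg hab, zero_add]
          exact hP b
      · push Not at hex
        exfalso
        have h1 : ∑ a, (c a - η) < ∑ a, ∑ j ∈ s with P j = a, v j := by
          apply Finset.sum_lt_sum_of_nonempty Finset.univ_nonempty
          intro a _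
          have h2 := hex a
          have h3 := hη j0
          linarith
        rw [Finset.sum_fiberwise] at h1
        have h4 : ∑ j ∈ s, v j ≤ ∑ j, v j :=
          Finset.sum_le_sum_of_subset_of_nonneg (Finset.subset_univ _) fun j _ _ => hv j
        linarith
  exact key Finset.univ

theorem thm : StmtPART := by
  intro ι κ _ _ _ _ c v η hv hη hc h
  exact part c v η hv hη hc h

end P209.Asy.PART
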